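import Vale.Agent.P280Z.Pr.D2

/-!
# P280X: fibres of dimension two on a manifold of dimension seven (numbers)
-/

noncomputable section

namespace Vale.Agent.P280X.C7

open Vale.Agent.P280Z Vale.Agent.P280Z.Pr
open Al Qs RdH AlgH D2H

variable {A B : Type} [CommRing A] [Algebra ℝ A] [CommRing B] [Algebra ℝ B] {S : NS A B}
  {t : ℕ → A} {x g : A}

theorem zb {b : B} (hb : b = 0) (c : B) : c * b ∈ Z S := by
  rw [hb, mul_zero]; exact zero_mem _

theorem s7 (F : FA S 7 1 2 5 t) (P : Pl S 5 t) (hx : Un S x) (hg : g = 3 * x - t 1) :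
    ∃ σ ρ a, S.T σ = 0 ∧ S.T ρ = 0 ∧ S.T (S.es g) = 0 ∧ S.es x = u S + σ ∧
    S.es a = 6 * ρ * u S + 6 * u S ^ 2 + 2 * (3 * σ - S.es g) ^ 2 +
      2 * ρ * (3 * σ - S.es g + ρ) ∧ S.T (S.es a) = 6 * ρ ∧
    ρ * (9 * u S ^ 2 - (3 * σ - S.es g + ρ) ^ 2) = 0 ∧ ρ * S.es g ^ 5 = 0 ∧
    (∀ i j l, 2 * i + j + l = 7 → ∀ c, c * ρ * S.es (a ^ i * g ^ j * x ^ l) ∈ Z S) ∧
    (∀ i j l, 2 * i + j + l = 8 → ∀ c, c * S.es (a ^ i * g ^ j * x ^ l) ∈ Z S) ∧
    g ^ 6 = 0 ∧ a * g ^ 5 = 0 := by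
  have h := F.ok
  obtain ⟨r3, r4⟩ := nw2 F
  obtain ⟨s, ρ, k, l, hs, hρ, hk, hl, e1, e2, e3, e4, d6, hκ⟩ := s12 F P
  obtain ⟨σ, hσ, ex⟩ := dec h hx.2
  have ig : Iv S 1 g := ⟨by
    rw [hg, GA.Dg, map_sub, ← map_ofNat (algebraMap ℝ A), ← Algebra.smul_def, map_smul, F.dt, hx.1],
    by simp only [hg, tc h, hx.2, e1, hs]; ring⟩
  have es : s = 3 * σ - S.es g := by
    simp only [hg, tc h, ex, e1]; ring
  have i2 := iv_mul h ig ig
  have i5 := iv_mul h (iv_mul h i2 i2) ig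
  have k3 := congrArg (fun v => S.T (S.es v)) r3
  have k4 := congrArg (fun v => S.T (S.es v)) r4
  simp only [e1, e2, e3, e4, tc h, hs, hρ, hk, hl, map_zero] at k3 k4
  have k5 : 3 * k = 15 * u S ^ 2 + 3 * s ^ 2 + 2 * ρ * (s + ρ) :=
    sub_eq_zero.1 (can 3 (by linear_combination k3))
  obtain ⟨a, ha⟩ : ∃ a, a = 3 * t 2 - t 1 ^ 2 := ⟨_, rfl⟩
  have da : S.GX.Dg 2 a := by
    rw [ha, GA.Dg, map_sub, ← map_ofNat (algebraMap ℝ A), ← Algebra.smul_def, map_smul, F.dt,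
      Elr.dg_pow h.gx (F.dt 1) 2]
  have ta : S.T (S.es a) = 6 * ρ := by
    simp only [ha, e1, e2, tc h, hs, hρ, hk]; ring
  have a5 : a * g ^ 5 = 0 := by rw [ha]; linear_combination hκ _ i5
  have dm : ∀ i j l, S.GX.Dg (2 * i + j + l) (a ^ i * g ^ j * x ^ l) := fun i j l =>
    h.gx.dg_mul _ _ _ _ (h.gx.dg_mul _ _ _ _ (by
      induction i with
      | zero => rw [pow_zero]; exact h.gx.dg_one
      | succ i ih => rw [pow_succ]; exact h.gx.dg_mul _ _ _ _ ih da)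
      (Elr.dg_pow h.gx ig.1 j)) (Elr.dg_pow h.gx hx.1 l)
  have k6 := two h (x := S.es a) (o := g * g * (g * g) * g) (by
    rw [← map_mul, show a * (g * g * (g * g) * g) = 0 by linear_combination a5, map_zero]) i5
  rw [ta] at k6
  simp only [map_mul] at k6
  refine ⟨σ, ρ, a, hσ, hρ, ig.2, by rw [ex, one_mul], ?_, ta, ?_, can 6 (by linear_combination k6),
    fun i j l e => d6 _ _ (dm i j l) e, fun i j l e => zv h (dm i j l) (by omega),
    by linear_combination ko F ig i5, a5⟩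
  · simp only [← es, ha, e1, e2, tc h]
    linear_combination k5
  · rw [← es]
    exact can 16 (by linear_combination 3 * k4 - (16 * s + 4 * ρ) * k5)

theorem c247 (F : FA S 7 1 2 5 t) (P : Pl S 5 t) (hu : Un S x) (hg : g = 3 * x - t 1)
    (hx : x ^ 4 = 0) : S.GX.int (x ^ 2 * g ^ 5) = 0 := by
  have h := F.ok
  obtain ⟨σ, ρ, a, hσ, hρ, ig, ex, ea, ta, hR, h5, d7, d8, h6, hk⟩ := s7 F P hu hg
  refine redN h 10373184 (add_mem (zo hk
      (1359216 * u S))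
    (add_mem (d8 2 1 3 rfl (145152))
    (add_mem (d8 1 3 3 rfl (1157760))
    (add_mem (d8 2 2 2 rfl (-110376))
    (add_mem (d8 2 3 1 rfl (-11952))
    (add_mem (d8 2 4 0 rfl (-20904))
    (add_mem (d8 3 0 2 rfl (21384))
    (add_mem (d8 1 4 2 rfl (781920))
    (add_mem (d8 3 1 1 rfl (-5436))
    (add_mem (d8 4 0 0 rfl (-727))
    (add_mem (d8 3 2 0 rfl (8676))
    (add_mem (zo hx
      (-4051296 * u S ^ 3 * S.es g - 51376032 * u S * σ ^ 2 * S.es g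
        + 42861312 * u S * σ * S.es g ^ 2 - 8825760 * u S * S.es g ^ 3
        + 19372608 * u S * S.es g ^ 2 * ρ + 36456480 * u S * S.es g * ρ ^ 2
        + 110209248 * σ ^ 3 * S.es g - 34902576 * σ ^ 2 * S.es g * ρ - 412128 * σ * S.es g ^ 3
        - 28250208 * σ * S.es g * ρ ^ 2 + 1198800 * S.es g ^ 3 * ρ + 4138128 * S.es g ^ 2 * ρ ^ 2
        - 4094064 * S.es g * ρ ^ 3 + 23662368 * u S ^ 2 * σ * S.es g
        - 7573824 * u S ^ 2 * S.es g ^ 2 - 65582784 * σ ^ 2 * S.es g ^ 2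
        - 28736208 * u S ^ 2 * S.es g * ρ - 80554176 * σ ^ 3 * ρ - 13400640 * u S ^ 2 * σ * ρ
        + 23338368 * u S * σ ^ 2 * ρ + 122238720 * u S * σ * S.es g * ρ
        - 29334960 * u S ^ 2 * ρ ^ 2 + 63980928 * u S * σ * ρ ^ 2 - 88144848 * σ ^ 2 * ρ ^ 2
        - 37021536 * σ * ρ ^ 3 - 5733504 * ρ ^ 4 + 1819584 * S.es g ^ 4
        + 1485216 * σ * S.es g ^ 2 * ρ - 9237888 * u S ^ 3 * σ - 10088064 * u S ^ 3 * ρ
        + 9237888 * u S * σ ^ 3 + 13742784 * u S * ρ ^ 3 - 64665216 * σ ^ 4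
        - 9237888 * u S ^ 2 * σ ^ 2))
    (add_mem (zb hR
      (328896 * u S * S.es g ^ 4 - 178272 * u S * S.es g ^ 3 * ρ
        + 249408 * u S * S.es g ^ 2 * ρ ^ 2 + 96096 * u S * S.es g * ρ ^ 3
        - 11425536 * u S * σ ^ 2 * S.es g ^ 2 - 5590944 * u S * σ ^ 2 * S.es g * ρ
        - 3540672 * u S * σ * S.es g ^ 3 + 926208 * u S * σ * S.es g ^ 2 * ρ
        + 1648512 * u S * σ * S.es g * ρ ^ 2 - 2944512 * u S * σ ^ 4
        - 1202688 * u S * σ ^ 2 * ρ ^ 2 - 76608 * u S * σ * ρ ^ 3 - 139584 * u S * ρ ^ 4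
        - 13696128 * u S * σ ^ 3 * ρ - 39056256 * u S * σ ^ 3 * S.es g
        - 2229120 * u S ^ 3 * ρ ^ 2 - 3888864 * u S ^ 3 * S.es g * ρ
        - 1669248 * u S ^ 3 * S.es g ^ 2))
    (add_mem (zo h6
      (12367296 * u S * σ - 2627136 * u S * S.es g + 2837856 * u S * ρ))
    (add_mem (zb h5
      (-5812128 * u S * σ - 2821248 * u S * ρ))
    (add_mem (d7 0 4 3 rfl (-5063040))
    (d7 1 2 3 rfl (-864000)))))))))))))))))) ?_
  simp only [ta, hu.2, tc h, hσ, hρ, ig]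
  simp only [ex, ea]
  ring

theorem c237 (F : FA S 7 1 2 5 t) (P : Pl S 5 t) (hu : Un S x) (hg : g = 3 * x - t 1)
    (hx : x ^ 5 = 0) : 5 * S.GX.int (x ^ 4 * g ^ 3) = 2 * S.GX.int (x ^ 2 * g ^ 5) := by
  have h := F.ok
  obtain ⟨σ, ρ, a, hσ, hρ, ig, ex, ea, ta, hR, h5, d7, d8, h6, hk⟩ := s7 F P hu hg
  have a0 : S.GX.int (5 * (x ^ 4 * g ^ 3) - 2 * (x ^ 2 * g ^ 5)) = 0 := by
    refine redN h 109078262496 (add_mem (d8 0 4 4 rfl (99090586080))
    (add_mem (d8 1 3 3 rfl (11329119360))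
    (add_mem (d8 2 1 3 rfl (3634972416))
    (add_mem (d8 1 2 4 rfl (17643698280))
    (add_mem (d8 2 0 4 rfl (688506588))
    (add_mem (d8 1 4 2 rfl (-31813975200))
    (add_mem (d8 2 2 2 rfl (3617436432))
    (add_mem (d8 2 3 1 rfl (55543104))
    (add_mem (d8 3 0 2 rfl (68872440))
    (add_mem (d8 3 1 1 rfl (36908100))
    (add_mem (d8 2 4 0 rfl (-1780934472))
    (add_mem (d8 3 2 0 rfl (34501780))
    (add_mem (d8 4 0 0 rfl (-168315))
    (add_mem (zb hR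
      (-34246718784 * u S * σ * S.es g ^ 3 + 5233352832 * u S * S.es g ^ 4
        + 1107966816 * u S * S.es g ^ 3 * ρ + 15403448448 * u S * σ ^ 2 * S.es g ^ 2
        + 3074897952 * u S * σ ^ 2 * S.es g * ρ + 9124529856 * u S * σ * S.es g ^ 2 * ρ
        - 6537637440 * u S * σ * S.es g * ρ ^ 2 - 875764800 * u S * S.es g ^ 2 * ρ ^ 2
        + 327581280 * u S * S.es g * ρ ^ 3 + 1005009600 * u S * σ * ρ ^ 3
        - 34165066176 * u S * σ ^ 3 * S.es g + 19219915008 * u S * σ ^ 3 * ρ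
        - 8475478272 * u S ^ 3 * S.es g ^ 2 - 3382394400 * u S * σ ^ 2 * ρ ^ 2
        - 32316480 * u S * ρ ^ 4 - 81307110528 * u S * σ ^ 4 - 91469927808 * u S ^ 3 * σ ^ 2
        + 494756640 * u S ^ 3 * ρ ^ 2 - 1436548896 * u S ^ 3 * S.es g * ρ
        - 2297901312 * u S ^ 3 * σ * ρ - 35072106048 * u S ^ 3 * σ * S.es g))
    (add_mem (zo hk
      (-43224178512 * u S))
    (add_mem (zo hx
      (-138831156576 * u S ^ 2 * S.es g - 76057859088 * σ * S.es g ^ 2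
        + 5024035584 * σ * S.es g * ρ + 380205556992 * S.es g ^ 3 - 60911303184 * S.es g ^ 2 * ρ
        - 20730730464 * S.es g * ρ ^ 2 - 26485384752 * u S * S.es g ^ 2
        - 6669098496 * u S * S.es g * ρ - 203280077952 * u S ^ 2 * σ - 391683708864 * σ ^ 3
        - 400257438336 * σ ^ 2 * ρ - 132840379728 * σ * ρ ^ 2 - 9988507872 * ρ ^ 3
        + 262785866112 * u S * σ ^ 2 - 1671234768 * u S * ρ ^ 2 + 14876447040 * u S ^ 3
        - 61005643776 * u S ^ 2 * ρ + 188403630912 * u S * σ * S.es g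
        - 228089838816 * σ ^ 2 * S.es g + 217240507008 * u S * σ * ρ))
    (add_mem (d7 0 3 4 rfl (63798320880))
    (add_mem (d7 0 4 3 rfl (140947843680))
    (add_mem (d7 1 2 3 rfl (-25569830880))
    (add_mem (d7 1 3 2 rfl (-2733335520))
    (add_mem (d7 2 0 3 rfl (-897878520))
    (add_mem (d7 1 1 4 rfl (-17737812720))
    (add_mem (d7 1 4 1 rfl (24519915360))
    (add_mem (d7 2 1 2 rfl (-1195069080))
    (add_mem (d7 2 2 1 rfl (-741919680))
    (add_mem (zo h6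
      (-413494856448 * u S * σ + 85930919808 * u S * S.es g - 85666401312 * u S * ρ))
    (zb h5
      (158244769056 * u S * σ + 79884864960 * u S * ρ)))))))))))))))))))))))))))) ?_
    simp only [ta, hu.2, tc h, hσ, hρ, ig]
    simp only [ex, ea]
    ring
  rw [map_sub, In, In] at a0
  linarith

end Vale.Agent.P280X.C7
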