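import Vale.Agent.P280X.CubA
import Vale.Agent.P280Z.R1.Rext
import Vale.Agent.P280Z.R1.Ramp
import Vale.Agent.P280Z.R1.Dsb
import Vale.Agent.P280Z.Ld.Va
import Vale.Agent.P280Z.Gm.Rt
import Vale.Agent.P280Z.Gm.Fibi
import Vale.Agent.P280Z.Pr.Adjf
import Vale.Agent.P280Z.Pr.Fax
import Vale.Agent.P280Z.Pr.Prj

/-!
# P280X: the cubic relation for fibres of dimension two
-/

open Set Filter
open Vale.Agent.P272.K Vale.Agent.P285.H281.FD Vale.Agent.P281Z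
open Vale.Agent.P277Z.Slc (lin)
open Vale.Agent.P277.HD (pull)
open Vale.Agent.P280Z Vale.Agent.P280Z.Rh Vale.Agent.P280Z.Pr

noncomputable section

namespace Vale.Agent.P280X

namespace CubH

variable {T : CT} {n : ℕ} {V : Mf n}

/-- a line bundle which is trivial on the fibres goes down -/
theorem dlb (th : Th T) {m r : ℕ} {U : Mf m} {e : U.X → V.X} (se : Sub m n e) (hd : m = n + r)
    (hV : Fano n V.X) (cn : ∀ x, IsConnected (e ⁻¹' {x})) {M₀ : Bd U.X} (l₀ : IsLB m M₀)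
    (hf : ∀ (Z : Mf r) (i : Z.X → U.X) x (hi : Emb r m i (e ⁻¹' {x})),
      T.pull hi.hol (T.c1 U M₀) = 0 ∧ T.Kc Z (T.pull hi.hol (cX T U))) :
    ∃ γ, T.Dg V 1 γ ∧ T.c1 U M₀ = T.pull se.hol γ := by
  have hT := th.ok
  have o1 := lb_inv (lb_can V)
  obtain ⟨k₀, N, s₀, p₀, hA⟩ := Ld.va V _ o1 hV.2
  have pA : Pos n ((P277.Bd.inv (Bd.can n V.X)).pow k₀) := hT.kp _ _ hA.lb (by
    rw [hT.c1.pow _ _ _ o1]
    exact hT.po.smul _ (by exact_mod_cast p₀) (hT.c1.pos V _ o1 hV.2))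
  generalize (P277.Bd.inv (Bd.can n V.X)).pow k₀ = A at s₀ hA pA
  have lK := lb_inv (lb_can U)
  have lL := lb_mul l₀ lK
  obtain ⟨c, hc⟩ := R1.ramp V U e _ A hd se lL hA.lb pA fun Z i x hi =>
    hT.kp _ _ (hi.hol.lb lL) (by
      rw [hT.c1.pull hi.hol _ lL, hT.c1.mul _ _ _ l₀ lK, map_add, (hf Z i x hi).1, zero_add,
        c1_acan hT]
      exact (hf Z i x hi).2)
  have lc := lb_pow hA.lb c
  have k1 := hT.c1.pos _ _ (lb_mul lL (se.hol.lb lc)) hc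
  rw [hT.c1.mul _ _ _ lL (se.hol.lb lc), hT.c1.pull se.hol _ lc, hT.c1.pow _ _ _ hA.lb, map_smul,
    hT.c1.mul _ _ _ l₀ lK, c1_inv hT (lb_can U)] at k1
  have lc' := lb_pow hA.lb (c + n)
  have lM := lb_mul l₀ (se.hol.lb lc')
  have cM := hT.c1.mul _ _ _ l₀ (se.hol.lb lc')
  rw [hT.c1.pull se.hol _ lc'] at cM
  generalize M₀.mul (pull e (A.pow (c + n))) = M at lM cM
  obtain ⟨B, lB, cB⟩ := R1.dsb T hT V U e se M lM cn fun x => by
    obtain ⟨Z, i, hi⟩ := (Gm.fibi T hT e x hd se).1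
    have l1 := hi.hol.lb lM
    have a1 := (adjf T hT se hi hd 0).1
    obtain ⟨s, s1, s2⟩ := (Gm.rt T hT th.hrr).2 Z _ (hi.conn.2 (cn x))
      (by rw [Gm.Fa, ← hT.ch.tan, a1]; exact (hf Z i x hi).2) l1 (by
        have c := Gm.FibiH.cart hd se hi
        have k := c.hg.comp c.sf'.hol
        rw [hT.c1.pull hi.hol M lM, cM, map_add, (hf Z i x hi).1, zero_add,
          ← hT.rg.pull_comp hi.hol se.hol k fun w => (c.comm w).symm,
          hT.rg.pull_comp c.sf'.hol c.hg k fun _ => rfl, ← hT.c1.deg V (A.pow _), hT.rg.pull_pr,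
          hT.rg.pr_zero _ _ _ one_pos, map_zero])
    obtain ⟨σ, t1, t2⟩ := R1.rext T hT V U Z e se A s₀ M x i hd hA lM hi
      (Eq.subst (motive := T.Kc U) (by
        rw [cM, hT.c1.pow _ _ _ hA.lb, map_smul]
        push_cast
        module) k1) _ (Ld.nm_mem l1 s1)
    refine ⟨σ, (e '' {u | ¬ NZ M σ u})ᶜ, ?_, ((Gm.RtH.an_z lM t1.1).closed.isCompact.image
      se.hol.cont).isClosed.isOpen_compl, t1.1, fun u hu => not_not.1 fun k => hu ⟨u, k, rfl⟩⟩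
    rintro ⟨u, k1, k2⟩
    obtain ⟨z, rfl⟩ : u ∈ range i := hi.rng.ge k2
    have h := Ld.nm_nz.2 (s2 z)
    rw [← t2] at h
    exact k1 h
  refine ⟨T.c1 V B - T.c1 V (A.pow (c + n)), by
    rw [CT.Dg, map_sub, hT.c1.deg, hT.c1.deg], ?_⟩
  rw [map_sub, ← cB, cM, add_sub_cancel_right]

theorem dsc (th : Th T) (hV : Fano n V.X) (F : Fm T V) (hm : F.m = 1)
    (h0 : (nsm F).el ((nsm F).pE 1 + 2 * (nsm F).τ) = 0) :
    ∃ γ, T.Dg V 1 γ ∧ (nsm F).pE 1 + 2 * (nsm F).τ = (nsm F).es γ := by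
  have hT := th.ok
  have hd := F.dim
  have e1 := ((Ma.rel_of vbl).ps T hT F.se.hol F.rel).2.2 1
  have lK := lb_inv (lb_can F.U)
  have lT := lb_pow F.Q.lb 2
  have c0 : T.c1 F.U ((P277.Bd.inv (Bd.can (F.k + 1) F.U.X)).mul (F.Tb.pow 2)) =
      (nsm F).pE 1 + 2 * (nsm F).τ + T.pull F.se.hol (cX T V) := by
    rw [hT.c1.mul _ _ _ lK lT, c1_acan hT, hT.c1.pow _ _ _ F.Q.lb, cX, e1]
    change _ = T.ps F.U F.E 1 + 2 * T.c1 F.U F.Tb + _
    rw [cX]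
    algebra
  obtain ⟨γ, d, e⟩ := dlb th F.se hd hV F.fe (lb_mul lK lT) fun Z i x hi => by
    have k1 := F.tau Z i x hi
    have a2 := (adjf T hT F.se hi hd 0).2
    have k3 : T.pull hi.hol ((nsm F).pE 1 + 2 * (nsm F).τ) = 0 := by
      have k2 := (Gm.fibi T hT F.e x hd F.se).2 Z i hi _ 0 (h0.trans (map_zero _).symm)
      refine Qs.pd_dg (Ma.ga_ok hT Z ((hT.po.kah Z).2 ⟨_, k1⟩)) (k := 0) (j := 1)
        (Ma.dg_pull hT _ (RdH.dg_add (F.ns.dE 1) (two_mul (nsm F).τ ▸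
          RdH.dg_add F.ns.dτ F.ns.dτ))) (by omega) fun b hb => ?_
      obtain ⟨c, rfl⟩ := hT.rg.h0 Z (hi.conn.2 (F.fe x)).toPreconnectedSpace b hb
      change T.int Z _ = 0
      rw [mul_comm, ← Algebra.smul_def, map_smul, k2, smul_zero]
    refine ⟨by rw [c0, map_add, k3, zero_add]; exact a2, ?_⟩
    refine Eq.subst (motive := T.Kc Z) ?_ (hT.po.smul 2 two_pos k1)
    rw [cX, e1, map_add, a2, add_zero, map_neg]
    change T.pull hi.hol (T.ps F.U F.E 1 + 2 * T.c1 F.U F.Tb) = 0 at k3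
    rw [map_add, map_mul, map_ofNat] at k3
    linear_combination (norm := algebra) -k3
  refine ⟨γ - cX T V, by rw [CT.Dg, map_sub, d, dg_cX hT V], ?_⟩
  change _ = T.pull F.se.hol _
  rw [map_sub, ← e, c0, add_sub_cancel_right]

end CubH

open CubH in
/-- the cubic relation -/
theorem cub {T : CT} (th : Th T) {n : ℕ} {V : Mf n} (B : Bas T V) (cl : Cls n V) (j : B.J)
    (hm : (B.F j).m = 1) (hd : (B.Q {j}).d = 2) {x g : T.H V} (hx : Un (nsm (B.F j)) x)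
    (hg : g = 3 * x - tr T (B.Q {j}).sub.hol 1) :
    ∃ e2 e3, Iv (nsm (B.F j)) 2 e2 ∧ Iv (nsm (B.F j)) 3 e3 ∧
      3 * tr T (B.Q {j}).sub.hol 2 - tr T (B.Q {j}).sub.hol 1 ^ 2 = 2 * g ^ 2 - 6 * e2 ∧
      x ^ 3 = g * x ^ 2 - e2 * x + e3 := by
  have fa := fax T th.ok B.F j (B.Q {j}) cl.1.1
  rw [hm, hd] at fa
  have pl := (pl2_of fax g2 (g3x_of adjf) T th V B cl j hm hd).1
  obtain ⟨γ, d, e⟩ := dsc th cl.1 (B.F j) hm (el0 fa pl)
  exact cubA fa pl d e hx hg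

end Vale.Agent.P280X
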