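import Vale.Agent.P280Z.Pr.D2

/-!
# P280X: the cubic relation for fibres of dimension two (algebra)
-/

noncomputable section

namespace Vale.Agent.P280X.CubH

open Vale.Agent.P280Z Vale.Agent.P280Z.Pr
open Al Al.Cn Qs RdH AlgH D2H

variable {A B : Type} [CommRing A] [Algebra ℝ A] [CommRing B] [Algebra ℝ B] {S : NS A B}
  {n y : ℕ} {t : ℕ → A} {x g : A}

theorem s13 (F : FA S n 1 2 y t) (P : Pl S y t) : ∃ s ρ, S.T s = 0 ∧ S.T ρ = 0 ∧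
    S.es (t 1) = 3 * u S + s ∧ S.pE 1 + 2 * S.τ = S.es (t 1) + ρ ∧
    S.es (3 * t 2 - t 1 ^ 2) = 6 * ρ * u S + 6 * u S ^ 2 + 2 * s ^ 2 + 2 * ρ * (s + ρ) ∧
    ρ * (9 * u S ^ 2 - (s + ρ) ^ 2) = 0 ∧
    ∀ v j, S.GX.Dg j v → j = n → ∀ c, c * ρ * S.es v ∈ Z S := by
  have h := F.ok
  obtain ⟨r3, r4⟩ := nw2 F
  obtain ⟨s, ρ, k, l, hs, hρ, hk, hl, e1, e2, e3, e4, d6, -⟩ := s12 F P
  have k3 := congrArg (fun v => S.T (S.es v)) r3
  have k4 := congrArg (fun v => S.T (S.es v)) r4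
  simp only [e1, e2, e3, e4, tc h, hs, hρ, hk, hl, map_zero] at k3 k4
  have k5 : 3 * k = 15 * u S ^ 2 + 3 * s ^ 2 + 2 * ρ * (s + ρ) :=
    sub_eq_zero.1 (can 3 (by linear_combination k3))
  have k6 : S.T (u S + S.pE 1) = 0 := by simpa [Finset.sum_range_succ, h.E0, u] using h.inv 1
  have k7 : S.T (S.pE 1) = -1 := by
    rw [map_add, Tu h] at k6
    linear_combination k6
  have k8 := tp F 2
  rw [Ma.RelH.pow_of (ne_spec S.pE) (h.rank _ (ne_spec S.pE)) 1] at k8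
  simp only [e2, k7, tc h, hs, hρ, hk] at k8
  refine ⟨s, ρ, hs, hρ, e1, ?_, ?_,
    can 16 (by linear_combination 3 * k4 - (16 * s + 4 * ρ) * k5), d6⟩
  · rw [e1, τu]
    exact sub_eq_zero.1 (can 2 (by linear_combination -k8))
  · simp only [e1, e2, tc h]
    linear_combination k5

theorem el0 (F : FA S n 1 2 y t) (P : Pl S y t) : S.el (S.pE 1 + 2 * S.τ) = 0 := by
  have h := F.ok
  obtain ⟨s, ρ, -, -, -, e, -, -, d⟩ := s13 F P
  obtain ⟨c, hc⟩ := h.h0 (S.el (S.pE 1 + 2 * S.τ)) (by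
    rw [GA.Dg, h.el_pr, two_mul, dg_add (h.dE 1) (dg_add h.dτ h.dτ)])
  have dv := Elr.dg_pow h.gx h.dη n
  have k : S.GU.int (1 * ρ * S.es (S.η ^ n)) = 0 := d _ _ dv rfl 1
  have k' : (S.pE 1 + 2 * S.τ) * S.es (S.η ^ n) = 1 * ρ * S.es (S.η ^ n) := by
    rw [e, add_mul, ← map_mul, dg_hi h.gx (h.gx.dg_mul _ _ _ _ (F.dt 1) dv) (by omega), map_zero,
      zero_add, one_mul]
  rw [← k', ← h.el_int, h.proj, hc, ← Algebra.smul_def, map_smul, smul_eq_mul] at k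
  rw [hc, (mul_eq_zero.1 k).resolve_right h.vol.ne', map_zero]

theorem cubA (F : FA S n 1 2 y t) (P : Pl S y t) {γ : A} (dγ : S.GX.Dg 1 γ)
    (eγ : S.pE 1 + 2 * S.τ = S.es γ) (hx : Un S x) (hg : g = 3 * x - t 1) :
    ∃ e2 e3, Iv S 2 e2 ∧ Iv S 3 e3 ∧ 3 * t 2 - t 1 ^ 2 = 2 * g ^ 2 - 6 * e2 ∧
      x ^ 3 = g * x ^ 2 - e2 * x + e3 := by
  have h := F.ok
  have hn := F.dim
  have m := h.gx.dg_mul
  obtain ⟨s, ρ, hs, hρ, e1, e, ea, hR, -⟩ := s13 F P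
  have eδ : S.es (γ - t 1) = ρ := by rw [map_sub, ← eγ, e, add_sub_cancel_left]
  have iδ : Iv S 1 (γ - t 1) := ⟨by rw [GA.Dg, map_sub, dγ, F.dt], by rw [eδ, hρ]⟩
  have z : γ - t 1 = 0 := F.pd 1 _ iδ fun j b hb => by
    have hz := iv_mul h iδ hb
    by_cases hj : 1 + j = y
    · rw [hj] at hz
      obtain ⟨c, c0, hc⟩ := iu h
      have k1 := hc (6 * (γ * S.η * ((γ - t 1) * b)))
      have k2 : γ * γ * S.η * ((γ - t 1) * b) = 0 :=
        dg_hi h.gx (m _ _ _ _ (m _ _ _ _ (m _ _ _ _ dγ dγ) h.dη) hz.1) (by omega)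
      have k3 : u S ^ 1 * S.es (6 * (γ * S.η * ((γ - t 1) * b))) =
          S.es (γ * γ * S.η * ((γ - t 1) * b)) := by
        have eg : S.es γ = 3 * u S + s + ρ := by rw [← eγ, e, e1]
        simp only [map_mul, map_ofNat, eδ, eg]
        linear_combination S.es S.η * S.es b * hR
      rw [k3, k2, map_zero, map_zero, In] at k1
      have k4 := t1o F hz 1
      have k5 := ko F iδ hz
      have k6 : γ * S.η * ((γ - t 1) * b) = 3 * (S.η ^ 2 * ((γ - t 1) * b)) := by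
        simp only [Algebra.smul_def, pow_one, Nat.cast_one, map_add, map_one, map_ofNat] at k4
        linear_combination S.η * k4 + S.η * k5
      rw [k6, In] at k1
      have k7 := (mul_eq_zero.1 k1.symm).resolve_left c0
      linarith
    · exact int_dg h.gx (m _ _ _ _ (Elr.dg_pow h.gx h.dη 2) hz.1) (by omega)
  obtain rfl : ρ = 0 := by rw [← eδ, z, map_zero]
  obtain ⟨σ, hσ, ex⟩ := dec h hx.2
  have ig : Iv S 1 g := ⟨by
    rw [hg, GA.Dg, map_sub, ← map_ofNat (algebraMap ℝ A), ← Algebra.smul_def, map_smul, F.dt, hx.1],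
    by simp only [hg, tc h, hx.2, e1, hs]; ring⟩
  obtain rfl : s = 3 * σ - S.es g := by
    simp only [hg, tc h, ex, e1]; ring
  obtain ⟨a, ha⟩ : ∃ a, 3 * t 2 - t 1 ^ 2 = a := ⟨_, rfl⟩
  have da : S.GX.Dg 2 a := by
    rw [← ha, GA.Dg, map_sub, ← map_ofNat (algebraMap ℝ A), ← Algebra.smul_def, map_smul, F.dt,
      Elr.dg_pow h.gx (F.dt 1) 2]
  rw [ha] at ea ⊢
  have d2 : S.GX.Dg 2 ((6 : ℝ)⁻¹ • (2 * g ^ 2 - a)) := by
    rw [GA.Dg, map_smul, map_sub, two_mul, map_add, Elr.dg_pow h.gx ig.1 2, da]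
  have c6 : 6 * algebraMap ℝ B (6 : ℝ)⁻¹ = 1 := by
    rw [← map_ofNat (algebraMap ℝ B), ← map_mul, mul_inv_cancel₀ (by norm_num), map_one]
  refine ⟨(6 : ℝ)⁻¹ • (2 * g ^ 2 - a), x ^ 3 - g * x ^ 2 + (6 : ℝ)⁻¹ • (2 * g ^ 2 - a) * x,
    ⟨d2, ?_⟩, ⟨?_, ?_⟩, by algebra, by ring⟩
  · simp only [ea, tc h, hσ, ig.2]
    ring
  · rw [GA.Dg, map_add, map_sub, Elr.dg_pow h.gx hx.1 3,
      m 1 2 _ _ ig.1 (Elr.dg_pow h.gx hx.1 2), m 2 1 _ _ d2 hx.1]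
  · simp only [ea, ex, tc h, hσ, ig.2]
    linear_combination (-(u S ^ 2) - 3 * σ ^ 2 + 2 * σ * S.es g) * c6

end Vale.Agent.P280X.CubH
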