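import Vale.Agent.P280X.Grr
import Vale.Agent.P280Z.Pr.Hr6
import Vale.Agent.P280Z.Pr.Neg
import Vale.Agent.P280Z.Pr.Posj
import Vale.Agent.P280Z.Pr.Prj
import Vale.Agent.P280Z.Pr.Adjf
import Vale.Agent.P280X.C7

/-!
# P280X: the case `(2, 3; 7)`
-/

open Set
open Vale.Agent.P272.K Vale.Agent.P285.H281.FD Vale.Agent.P281Z
open Vale.Agent.P280Z Vale.Agent.P280Z.Rh Vale.Agent.P280Z.Pr Vale.Agent.P280Z.Pr.K336H

noncomputable section

namespace Vale.Agent.P280X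

/-- a relation for fibres of dimension two -/
def C237 : Prop := ForS fun S t => FA S 7 1 2 5 t → Pl S 5 t → ∀ x, Un S x → x ^ 5 = 0 →
  5 * S.GX.int (x ^ 4 * (3 * x - t 1) ^ 3) = 2 * S.GX.int (x ^ 2 * (3 * x - t 1) ^ 5)

namespace K237H

theorem core {T : CT} (hT : T.OK) {V : Mf 7} {x h : T.H V} (hx : T.Nn V x) (hh : T.Nn V h)
    (hk : T.Kc V (x + h)) (hs : ∀ a, T.Dg V 1 a → ∃ s t : ℝ, a = s • x + t • h) (x5 : x ^ 5 = 0)
    (h6 : h ^ 6 = 0) (h0 : 0 < T.int V (x ^ 2 * h ^ 5))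
    (h1 : T.int V (x ^ 4 * h ^ 3) = T.int V (x ^ 2 * h ^ 5)) (h2 : T.int V (x ^ 3 * h ^ 4) = 0) :
    False := by
  obtain ⟨a, ha⟩ : ∃ a, a = (15 : ℝ) • (x * x) - (28 : ℝ) • (x * h) + (17 : ℝ) • (h * h) :=
    ⟨_, rfl⟩
  have dx := hT.po.deg hx
  have dh := hT.po.deg hh
  have tx := nn_ty hT hx
  have th := nn_ty hT hh
  have da : T.Dg V 2 a := by
    rw [ha, CT.Dg, map_add, map_sub, map_smul, map_smul, map_smul, hT.rg.dg_mul V 1 1 _ _ dx dx,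
      hT.rg.dg_mul V 1 1 _ _ dx dh, hT.rg.dg_mul V 1 1 _ _ dh dh]
  have h3 : T.int V (a * a * (x + h) ^ 3) = -60 * T.int V (x ^ 2 * h ^ 5) := by
    rw [show a * a * (x + h) ^ 3 = (635 : ℝ) • (x ^ 4 * h ^ 3) + (475 : ℝ) • (x ^ 3 * h ^ 4) +
      (-695 : ℝ) • (x ^ 2 * h ^ 5) by
        rw [ha]
        linear_combination (norm := algebra) (225 * x ^ 2 - 165 * x * h - 551 * h ^ 2) * x5 +
          (289 * h - 85 * x) * h6]
    simp only [map_add, map_smul, smul_eq_mul, h1, h2]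
    ring
  have h4 := hT.ho.hr hk 2 3 rfl a (ha ▸ add_mem (sub_mem ((T.Ty V).smul_mem (mul_mem tx tx) _)
    ((T.Ty V).smul_mem (mul_mem tx th) _)) ((T.Ty V).smul_mem (mul_mem th th) _)) da
    (Qs.pd_dg (Ma.ga_ok hT V ((hT.po.kah V).2 ⟨_, hk⟩)) (k := 1)
      (hT.rg.dg_mul V 4 2 _ _ (Ma.dg_pow hT (hT.po.deg hk) 4) da) rfl fun b hb => by
      obtain ⟨s, t, rfl⟩ := hs b hb
      show T.int V _ = 0
      rw [show (x + h) ^ (3 + 1) * a * (s • x + t • h) =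
        (-40 * s - 5 * t) • (x ^ 4 * h ^ 3) + (5 * s - 40 * t) • (x ^ 3 * h ^ 4) +
          (40 * s + 5 * t) • (x ^ 2 * h ^ 5) by
        rw [ha]
        linear_combination (norm := algebra) (s • (15 * x ^ 2 + 32 * x * h - 5 * h ^ 2) +
          t • (15 * x * h + 32 * h ^ 2)) * x5 + (s • (17 * x) + t • (17 * h + 40 * x)) * h6]
      simp only [map_add, map_smul, smul_eq_mul, h1, h2]
      ring)
    fun k => by
      rw [k, zero_mul, zero_mul, map_zero] at h3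
      linarith
  rw [h3] at h4
  linarith

theorem hr7 {T : CT} (hT : T.OK) {V : Mf 7} {x h : T.H V} (hx : T.Nn V x) (hh : T.Nn V h)
    (hk : ∀ s t : ℝ, 0 < s → 0 < t → T.Kc V (s • x + t • h))
    (hs : ∀ a, T.Dg V 1 a → ∃ s t : ℝ, a = s • x + t • h) (x5 : x ^ 5 = 0) (h6 : h ^ 6 = 0)
    (v2 : 0 < T.int V (x ^ 2 * h ^ 5)) (v4 : 0 < T.int V (x ^ 4 * h ^ 3)) :
    T.int V (x ^ 3 * h ^ 4) ≠ 0 := by
  intro v3
  obtain ⟨s, s0, s1⟩ : ∃ s : ℝ, 0 < s ∧ s ^ 2 = T.int V (x ^ 2 * h ^ 5) :=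
    ⟨_, Real.sqrt_pos.2 v2, Real.sq_sqrt v2.le⟩
  obtain ⟨t, t0, t1⟩ : ∃ t : ℝ, 0 < t ∧ t ^ 2 = T.int V (x ^ 4 * h ^ 3) :=
    ⟨_, Real.sqrt_pos.2 v4, Real.sq_sqrt v4.le⟩
  have e : ∀ j k : ℕ, T.int V ((s • x) ^ j * (t • h) ^ k) =
      s ^ j * t ^ k * T.int V (x ^ j * h ^ k) := fun j k => by
    rw [smul_pow, smul_pow, smul_mul_smul_comm, map_smul, smul_eq_mul]
  refine core hT (nn_smul hT hx s0.le) (nn_smul hT hh t0.le) (hk s t s0 t0) (fun a ha => ?_)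
    (by rw [smul_pow, x5, smul_zero]) (by rw [smul_pow, h6, smul_zero]) (by rw [e]; positivity)
    (by rw [e, e, ← s1, ← t1]; ring) (by rw [e, v3, mul_zero])
  obtain ⟨u, v, rfl⟩ := hs a ha
  exact ⟨u / s, v / t, by
    rw [smul_smul, smul_smul, div_mul_cancel₀ _ s0.ne', div_mul_cancel₀ _ t0.ne']⟩

theorem whole {T : CT} (hT : T.OK) {n : ℕ} {V : Mf n} (B : Bas T V) (i j : B.J) :
    ∃ z : ℤ, (B.F i).dg (tr T (B.Q {j}).sub.hol 1) = z := by
  have lK := lb_can (B.Q {j}).Y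
  obtain ⟨z, hz⟩ := (neg T hT (B.F i) _ ((B.Q {j}).sub.hol.lb lK)).1
  refine ⟨(B.F i).m + 2 + z, ?_⟩
  rw [tr, map_sub, (B.F i).c1, hT.ch.tan, map_neg, ← hT.c1.pull _ _ lK, map_neg, hz]
  push_cast
  ring

theorem num {m : ℕ} {b c : ℤ} {A B C : ℝ} (hm : m = 1 ∨ m = 2) (hA : 0 < A) (hB : B ≠ 0)
    (h1 : B + b * A = 0) (h2 : (m + 2) * B + 4 * c * C = 0) (h3 : 5 * (b ^ 3 * C) = 2 * (b ^ 5 * A)) :
    False := by
  have b0 : (b : ℝ) ≠ 0 := fun e => hB (by rw [e] at h1; linarith)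
  have h4 : (b : ℝ) ^ 4 * A * (5 * (m + 2) - 8 * (b * c)) = 0 := by
    linear_combination 5 * (m + 2) * b ^ 3 * h1 - 5 * b ^ 3 * h2 + 4 * c * h3
  have h5 : (5 * (m + 2) - 8 * (b * c) : ℤ) = 0 := by
    exact_mod_cast (mul_eq_zero.1 h4).resolve_left (by positivity)
  generalize b * c = e at h5
  omega

end K237H

open K237H in
theorem k237b_of (c237 : C237) (pl2 : PL2) (T : CT) (V : Mf 7) (B : Bas T V) (i j : B.J)
    (h : Two B i j) (di : (B.Q {i}).d = 3) (dj : (B.Q {j}).d = 2) : False := by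
  have hT := h.th.ok
  have cV := ((fano_iff hT V).1 h.cls.1).1
  have fa := fax T hT B.F j (B.Q {j}) cV
  have fi := fax T hT B.F i (B.Q {i}) cV
  have hm : (B.F j).m = 1 := by
    have h1 := rd _ _ _ _ _ _ fa
    have h2 := h.pos j
    omega
  have mi : (B.F i).m = 1 ∨ (B.F i).m = 2 := by
    have h1 := rd _ _ _ _ _ _ fi
    have h2 := h.pos i
    omega
  have yj : (B.Q {j}).y = 5 := by have := (B.Q {j}).dim; omega
  have yi : (B.Q {i}).y = 4 := by have := (B.Q {i}).dim; omega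
  have fa' := fa_cast fa hm dj yj
  have pl := pl_cast (pl2 T h.th V B h.cls j hm dj).1 yj
  have p1 := pos h (posj T hT B cV) dj yj
  have p2 := pos (symm h) (posj T hT B cV) di yi
  rw [mul_comm] at p2
  have x5 : B.H j ^ 5 = 0 := (B.Q {i}).pow_zero' hT (dgH h j) (off (symm h)) (by omega)
  have h6 : B.H i ^ 6 = 0 := (B.Q {j}).pow_zero' hT (dgH h i) (off h) (by omega)
  have p3 := hr7 hT (B.nn j) (B.nn i) (fun s t hs ht => B.kc _ (by
      rw [CT.Dg, map_add, map_smul, map_smul, dgH h j, dgH h i]) fun k => by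
      rw [map_add, map_smul, map_smul, B.dual, B.dual]
      rcases h.all k with rfl | rfl <;> simp [h.ne, h.ne.symm, hs, ht])
    (fun a ha => ⟨_, _, span (symm h) ha⟩) x5 h6 p1 p2
  have k1 : 5 * T.int V _ = 2 * T.int V _ := c237 _ _ fa' pl _ (un h) x5
  have k2 : T.int V _ = 0 := cm2 _ _ _ _ fa' pl 4 _ rfl (iv h 4)
  have k3 : T.int V _ = 0 := cm37 T V B j i (symm h) di 3 _ (by omega) (iv (symm h) 3)
  have e := span h (fa.dt 1)
  have e' := span (symm h) (fi.dt 1)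
  obtain ⟨b, hb⟩ := whole hT B i j
  obtain ⟨c, hc⟩ := whole hT B j i
  rw [dg_t h, hm, hb] at e
  rw [dg_t (symm h), hc] at e'
  rw [di] at k3
  generalize tr T (B.Q {j}).sub.hol 1 = t at e k1 k2
  generalize tr T (B.Q {i}).sub.hol 1 = t' at e' k3
  generalize B.H j = x at *
  generalize B.H i = g at *
  generalize (B.F i).m = m at *
  have e1 : x ^ 4 * (3 * x - t) ^ 3 = (-b ^ 3 : ℝ) • (x ^ 4 * g ^ 3) := by
    rw [e]
    simp only [Algebra.smul_def, map_add, map_neg, map_pow, map_ofNat, Nat.cast_one, map_one]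
    ring
  have e2 : x ^ 2 * (3 * x - t) ^ 5 = (-b ^ 5 : ℝ) • (x ^ 2 * g ^ 5) := by
    rw [e]
    simp only [Algebra.smul_def, map_add, map_neg, map_pow, map_ofNat, Nat.cast_one, map_one]
    ring
  have e3 : t ^ (2 + 1) * g ^ 4 = (27 : ℝ) • (x ^ 3 * g ^ 4) + (27 * b : ℝ) • (x ^ 2 * g ^ 5) := by
    rw [e]
    simp only [Algebra.smul_def, map_add, map_mul, map_ofNat, Nat.cast_one, map_one]
    linear_combination (9 * algebraMap ℝ _ (b : ℝ) ^ 2 * x + algebraMap ℝ _ (b : ℝ) ^ 3 * g) * h6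
  have e4 : t' ^ (3 + 1) * x ^ 3 = ((m + 2 : ℝ) ^ 4) • (x ^ 3 * g ^ 4) +
      (4 * (m + 2 : ℝ) ^ 3 * c) • (x ^ 4 * g ^ 3) := by
    rw [e']
    generalize (m + 2 : ℝ) = r
    simp only [Algebra.smul_def, map_mul, map_pow, map_ofNat]
    linear_combination (6 * algebraMap ℝ _ r ^ 2 * algebraMap ℝ _ (c : ℝ) ^ 2 * g ^ 2 +
      4 * algebraMap ℝ _ r * algebraMap ℝ _ (c : ℝ) ^ 3 * x * g +
      algebraMap ℝ _ (c : ℝ) ^ 4 * x ^ 2) * x5
  rw [e1, e2, map_smul, map_smul, smul_eq_mul, smul_eq_mul] at k1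
  rw [e3, map_add, map_smul, map_smul, smul_eq_mul, smul_eq_mul] at k2
  rw [e4, map_add, map_smul, map_smul, smul_eq_mul, smul_eq_mul] at k3
  refine num (b := b) (c := c) (C := T.int V (x ^ 4 * g ^ 3)) mi p1 p3 (by linarith)
    (mul_left_cancel₀ (a := (m + 2 : ℝ) ^ 3) (by positivity) (by linear_combination k3))
    (by linarith)

/-- the case `(2, 3; 7)` does not occur -/
theorem k237b (T : CT) (V : Mf 7) (B : Bas T V) (i j : B.J) (h : Two B i j)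
    (di : (B.Q {i}).d = 3) (dj : (B.Q {j}).d = 2) : False :=
  k237b_of (fun _ _ F P _ hu hx => C7.c237 F P hu rfl hx) (pl2_of fax g2 (g3x_of adjf))
    T V B i j h di dj

end Vale.Agent.P280X
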