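import Vale.Agent.P280X.K247b
import Vale.Agent.P280X.R3.C236g
import Vale.Agent.P280Z.Pr.Fax
import Vale.Agent.P280Z.Pr.Rd
import Vale.Agent.P280Z.Pr.D2
import Vale.Agent.P280Z.Pr.Posj
import Vale.Agent.P280Z.Pr.Prj
import Vale.Agent.P280Z.Pr.Adjf

/-!
# P280X: fibres of dimensions two and four on a sevenfold (closed form)
-/

open Vale.Agent.P272.K Vale.Agent.P285.H281.FD Vale.Agent.P281Z
open Vale.Agent.P280Z Vale.Agent.P280Z.Rh Vale.Agent.P280Z.Pr

namespace Vale.Agent.P280X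

theorem k247c (T : CT) (V : Mf 7) (B : Bas T V) (i j : B.J) (h : Two B i j)
    (di : (B.Q {i}).d = 4) (dj : (B.Q {j}).d = 2) : False :=
  k247b_of fax cm2 R3.c236g rd (pl2_of fax g2 (g3x_of Pr.adjf)) posj T V B i j h di dj

end Vale.Agent.P280X
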