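import Vale.Agent.P280X.K2.Top75
import Vale.Agent.P280X.Cub
import Vale.Agent.P280X.Kl.All
import Vale.Agent.P280X.K237b
import Vale.Agent.P280X.K247c
import Vale.Agent.P280X.G7.All2
import Vale.Agent.P280X.R3.All

/-!
# P280X: assembly
-/

namespace Vale.Agent.P280X

theorem k227c : P280W.K227 :=
  K2.R75.k227_cub (fun _ th _ _ B cl j hm hd _ _ hx hg => cub th B cl j hm hd hx hg) Kl.seg

theorem nop1 : P280W.NOP := P280W.nop_of k227c k237b k247c G7.A2.k337 R3.k347 R3.r3

end Vale.Agent.P280X
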