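import Vale.Agent.P280X.K2.Top75
import Vale.Agent.P280X.Cub

/-!
# P280X: the case `(2, 2; 7)`
-/

namespace Vale.Agent.P280X

theorem k227_of (seg : P280W.SEG) : P280W.K227 :=
  K2.R75.k227_cub (fun _ th _ _ B cl j hm hd _ _ hx hg => cub th B cl j hm hd hx hg) seg

end Vale.Agent.P280X
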