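import Vale.Agent.P280X.R3.Defs
import Vale.Agent.P280Z.Pr.K336

/-!
# P280X: fibres of dimensions two and four on a sevenfold
-/

open Set
open Vale.Agent.P272.K Vale.Agent.P285.H281.FD Vale.Agent.P281Z
open Vale.Agent.P280Z Vale.Agent.P280Z.Rh Vale.Agent.P280Z.Pr Vale.Agent.P280Z.Pr.K336H

noncomputable section

namespace Vale.Agent.P280X

theorem k247b_of (fax : FAX) (cm2 : CM2) (c236 : R3.C236G) (rd : RD) (pl2 : PL2) (posj : POSJ)
    (T : CT) (V : Mf 7) (B : Bas T V) (i j : B.J) (h : Two B i j) (di : (B.Q {i}).d = 4)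
    (dj : (B.Q {j}).d = 2) : False := by
  have hT := h.th.ok
  have cV := ((fano_iff hT V).1 h.cls.1).1
  have fa := fax T hT B.F j (B.Q {j}) cV
  have hm : (B.F j).m = 1 := by
    have h1 := rd _ _ _ _ _ _ fa
    have h2 := h.pos j
    omega
  have yj : (B.Q {j}).y = 5 := by have := (B.Q {j}).dim; omega
  have yi : (B.Q {i}).y = 3 := by have := (B.Q {i}).dim; omega
  have fa' := fa_cast fa hm dj yj
  have pl := pl_cast (pl2 T h.th V B h.cls j hm dj).1 yj
  have p1 := pos h (posj T hT B cV) dj yj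
  have p2 := pos (symm h) (posj T hT B cV) di yi
  have x4 : B.H j ^ 4 = 0 := (B.Q {i}).pow_zero' hT (dgH h j) (off (symm h)) (by omega)
  have k1 : T.int V _ = 0 := c236 _ _ _ _ fa' pl _ (un h) x4 1 _ (iv h 1) rfl
  have k2 : T.int V _ = 0 := cm2 _ _ _ _ fa' pl 4 _ rfl (iv h 4)
  have e := span h (fa.dt 1)
  rw [dg_t h, hm] at e
  generalize (B.F i).dg (tr T (B.Q {j}).sub.hol 1) = β at e
  generalize tr T (B.Q {j}).sub.hol 1 = t at e k1 k2
  have e1 : B.H j ^ 2 * (3 * B.H j - t) ^ 4 * B.H i ^ 1 = β ^ 4 • (B.H j ^ 2 * B.H i ^ 5) := by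
    rw [e]
    simp only [Algebra.smul_def, map_add, map_pow, map_ofNat, Nat.cast_one, map_one]
    ring
  rw [e1, map_smul, smul_eq_mul] at k1
  obtain rfl : β = 0 := pow_eq_zero_iff (by norm_num) |>.1 ((mul_eq_zero.1 k1).resolve_right p1.ne')
  have e2 : t ^ (2 + 1) * B.H i ^ 4 = (27 : ℝ) • (B.H i ^ 4 * B.H j ^ 3) := by
    rw [e]
    simp only [Algebra.smul_def, map_add, map_ofNat, Nat.cast_one, map_one, map_zero]
    ring
  rw [e2, map_smul, smul_eq_mul] at k2
  linarith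

end Vale.Agent.P280X
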